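import Vale.Agent.P004Z.St

/-! # P004Z: Stokes on the truncated fundamental domain -/

open Complex MeasureTheory Set intervalIntegral

noncomputable section

namespace Vale.Agent.P004Z

namespace Sk

/-- the lower arc -/
def sa (u : ℝ) : ℝ := √(1 - u ^ 2)

theorem sa_pos {u : ℝ} (h : |u| ≤ 1 / 2) : 0 < sa u :=
  Real.sqrt_pos.2 (by have := abs_le.1 h; nlinarith)

theorem sa_le (u : ℝ) : sa u ≤ 1 := Real.sqrt_le_one.2 (by nlinarith)

theorem sa_sq {u : ℝ} (h : |u| ≤ 1 / 2) : sa u ^ 2 = 1 - u ^ 2 :=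
  Real.sq_sqrt (by have := abs_le.1 h; nlinarith)

theorem sa_neg (u : ℝ) : sa (-u) = sa u := by simp [sa]

theorem cont_sa : Continuous sa := by unfold sa; fun_prop

theorem der_sa {u : ℝ} (h : |u| ≤ 1 / 2) : HasDerivAt sa (-u / sa u) u := by
  have a : (1 : ℝ) - u ^ 2 ≠ 0 := by have := abs_le.1 h; nlinarith
  have b : HasDerivAt (fun u : ℝ => 1 - u ^ 2) (-(2 * u)) u := by
    simpa using (hasDerivAt_pow 2 u).const_sub 1
  refine (b.sqrt a).congr_deriv ?_
  have := (sa_pos h).ne'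
  unfold sa at *
  field_simp

theorem mem_FD {τ : ℂ} : τ ∈ FD ↔ |τ.re| ≤ 1 / 2 ∧ sa τ.re ≤ τ.im := by
  refine and_congr_right fun h => ⟨fun ⟨a, b⟩ => ?_, fun a => ?_⟩
  · refine Real.sqrt_le_iff.2 ⟨b.le, ?_⟩
    have : 1 ≤ ‖τ‖ ^ 2 := one_le_pow₀ a
    rw [Complex.sq_norm, normSq_apply] at this
    nlinarith
  · have p := sa_pos h
    refine ⟨?_, p.trans_le a⟩
    refine (sq_le_sq₀ zero_le_one (norm_nonneg _)).1 ?_
    rw [Complex.sq_norm, normSq_apply]
    nlinarith [sa_sq h]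

theorem mem_FT {T : ℝ} {τ : ℂ} : τ ∈ FT T ↔ |τ.re| ≤ 1 / 2 ∧ sa τ.re ≤ τ.im ∧ τ.im ≤ T := by
  simp only [FT, mem_inter_iff, mem_FD, mem_ofPred_eq, and_assoc]

theorem closed_FD : IsClosed FD := by
  have : FD = {τ : ℂ | |τ.re| ≤ 1 / 2} ∩ {τ | sa τ.re ≤ τ.im} := Set.ext fun _ => mem_FD
  rw [this]
  exact (isClosed_le (by fun_prop) continuous_const).inter
    (isClosed_le (cont_sa.comp continuous_re) continuous_im)

theorem compact_FT (T : ℝ) : IsCompact (FT T) := by
  refine Metric.isCompact_of_isClosed_isBounded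
    (closed_FD.inter (isClosed_le continuous_im continuous_const)) ?_
  refine (Metric.isBounded_closedBall (x := (0 : ℂ)) (r := 1 / 2 + T)).subset fun τ h => ?_
  rw [mem_closedBall_zero_iff]
  have := norm_le_abs_re_add_abs_im τ
  rw [abs_of_pos h.1.2.2] at this
  have a := h.1.1
  have b : τ.im ≤ T := h.2
  linarith

/-- Fubini on the truncated domain -/
theorem int_FT {F : ℂ → ℂ} {T : ℝ} (hT : 1 ≤ T) (hF : IntegrableOn F (FT T)) :
    ∫ τ in FT T, F τ = ∫ u in (-(1 / 2) : ℝ)..(1 / 2), ∫ v in sa u..T, F (u + I * v) := by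
  have m := (compact_FT T).measurableSet
  have e := volume_preserving_equiv_real_prod.symm
  have i : Integrable (fun x => (FT T).indicator F (measurableEquivRealProd.symm x))
      (volume.prod volume) := (e.integrable_comp_emb (MeasurableEquiv.measurableEmbedding _)).2
    ((integrable_indicator_iff m).2 hF)
  rw [← MeasureTheory.integral_indicator m, ← e.integral_comp', Measure.volume_eq_prod,
    integral_prod _ i, integral_of_le (by norm_num), ← integral_Icc_eq_integral_Ioc,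
    ← MeasureTheory.integral_indicator measurableSet_Icc]
  refine integral_congr_ae (.of_forall fun u => ?_)
  have z : ∀ v : ℝ, measurableEquivRealProd.symm (u, v) = u + I * v := fun v => by
    apply Complex.ext <;> simp
  simp only [z]
  by_cases h : u ∈ Icc (-(1 / 2) : ℝ) (1 / 2)
  · rw [indicator_of_mem h, integral_of_le ((sa_le u).trans hT), ← integral_Icc_eq_integral_Ioc,
      ← MeasureTheory.integral_indicator measurableSet_Icc]
    refine integral_congr_ae (.of_forall fun v => ?_)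
    have : (u : ℂ) + I * v ∈ FT T ↔ v ∈ Icc (sa u) T := by simp [mem_FT, abs_le.2 h, -one_div]
    by_cases k : v ∈ Icc (sa u) T
    · simp only [indicator_of_mem k, indicator_of_mem (this.2 k)]
    · simp only [indicator_of_notMem k, indicator_of_notMem (mt this.1 k)]
  · rw [indicator_of_notMem h]
    refine integral_eq_zero_of_ae (.of_forall fun v => indicator_of_notMem (fun k => h ?_) _)
    simpa [-one_div] using abs_le.1 (mem_FT.1 k).1

theorem swap {f : ℝ → ℝ → ℂ} {a b c d : ℝ} (hab : a ≤ b) (hcd : c ≤ d)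
    (h : ContinuousOn (fun p : ℝ × ℝ => f p.1 p.2) (Icc a b ×ˢ Icc c d)) :
    ∫ u in a..b, ∫ w in c..d, f u w = ∫ w in c..d, ∫ u in a..b, f u w := by
  simp only [integral_of_le hab, integral_of_le hcd, ← integral_Icc_eq_integral_Ioc]
  refine integral_integral_swap ?_
  rw [Measure.prod_restrict]
  exact h.integrableOn_compact (isCompact_Icc.prod isCompact_Icc)

end Sk

open Sk

theorem stk : STK := fun h hc hp T hT => by
  have o : IsOpen {τ : ℂ | 0 < τ.im} := isOpen_lt continuous_const continuous_im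
  have cd : ContinuousOn (fderiv ℝ h) {τ | 0 < τ.im} := hc.continuousOn_fderiv_of_isOpen o le_rfl
  have hd : ∀ τ : ℂ, 0 < τ.im → HasFDerivAt h (fderiv ℝ h τ) τ := fun τ t =>
    ((hc.differentiableOn one_ne_zero τ t).differentiableAt (o.mem_nhds t)).hasFDerivAt
  have cl : ContinuousOn (Lo h) {τ | 0 < τ.im} :=
    (cd.clm_apply continuousOn_const).sub (continuousOn_const.mul (cd.clm_apply continuousOn_const))
  set Z : ℝ → ℝ → ℂ := fun u w => u + I * (sa u + w * (T - sa u) : ℝ) with hZ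
  have zp : ∀ u w, u ∈ Icc (-(1 / 2) : ℝ) (1 / 2) → w ∈ Icc (0 : ℝ) 1 → 0 < (Z u w).im :=
    fun u w a b => by
      have := sa_pos (abs_le.2 a)
      have := mul_nonneg b.1 (sub_nonneg.2 ((sa_le u).trans hT))
      simp only [hZ, add_im, ofReal_im, mul_im, I_re, I_im, ofReal_re]
      linarith
  have zc : Continuous fun p : ℝ × ℝ => Z p.1 p.2 := by
    have := cont_sa
    simp only [hZ]
    fun_prop
  have mp : MapsTo (fun p : ℝ × ℝ => Z p.1 p.2) (Icc (-(1 / 2) : ℝ) (1 / 2) ×ˢ Icc (0 : ℝ) 1)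
      {τ | 0 < τ.im} := fun p k => zp _ _ k.1 k.2
  have c1 := hc.continuousOn.comp zc.continuousOn mp
  have c2 := cd.comp zc.continuousOn mp
  set s' : ℝ → ℂ := fun u => (-u / sa u : ℝ) with hs
  have c3 : ContinuousOn (fun p : ℝ × ℝ => s' p.1) (Icc (-(1 / 2) : ℝ) (1 / 2) ×ˢ Icc (0 : ℝ) 1) :=
    continuous_ofReal.comp_continuousOn (continuousOn_fst.neg.div (cont_sa.comp continuous_fst).continuousOn
      fun p k => (sa_pos (abs_le.2 k.1)).ne')
  have c4 : Continuous fun p : ℝ × ℝ => ((T - sa p.1 : ℝ) : ℂ) := by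
    have := cont_sa
    fun_prop
  have c5 : Continuous fun p : ℝ × ℝ => ((p.2 : ℝ) : ℂ) := by fun_prop
  set Pw : ℝ → ℝ → ℂ := fun u w => fderiv ℝ h (Z u w) I * (T - sa u : ℝ) * (1 + I * s' u * (1 - w)) +
    h (Z u w) * (-(I * s' u)) with hP
  set Qu : ℝ → ℝ → ℂ := fun u w => (fderiv ℝ h (Z u w) 1 + fderiv ℝ h (Z u w) I * (s' u * (1 - w))) *
    (I * (T - sa u : ℝ)) + h (Z u w) * (-(I * s' u)) with hQ
  have cP : ContinuousOn (fun p : ℝ × ℝ => Pw p.1 p.2) (Icc (-(1 / 2) : ℝ) (1 / 2) ×ˢ Icc (0 : ℝ) 1) :=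
    (((c2.clm_apply continuousOn_const).mul c4.continuousOn).mul (continuousOn_const.add
      ((continuousOn_const.mul c3).mul (continuousOn_const.sub c5.continuousOn)))).add
      (c1.mul (continuousOn_const.mul c3).neg)
  have cQ : ContinuousOn (fun p : ℝ × ℝ => Qu p.1 p.2) (Icc (-(1 / 2) : ℝ) (1 / 2) ×ˢ Icc (0 : ℝ) 1) :=
    (((c2.clm_apply continuousOn_const).add ((c2.clm_apply continuousOn_const).mul
      (c3.mul (continuousOn_const.sub c5.continuousOn)))).mul
      (continuousOn_const.mul c4.continuousOn)).add (c1.mul (continuousOn_const.mul c3).neg)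
  have hab : (-(1 / 2) : ℝ) ≤ 1 / 2 := by norm_num
  have sl1 : ∀ {f : ℝ × ℝ → ℂ}, ContinuousOn f (Icc (-(1 / 2) : ℝ) (1 / 2) ×ˢ Icc (0 : ℝ) 1) →
      ∀ u ∈ Icc (-(1 / 2) : ℝ) (1 / 2), IntervalIntegrable (fun w => f (u, w)) volume 0 1 :=
    fun c u a => ContinuousOn.intervalIntegrable_of_Icc zero_le_one
      (c.comp (by fun_prop) fun w b => ⟨a, b⟩)
  have sl2 : ∀ {f : ℝ × ℝ → ℂ}, ContinuousOn f (Icc (-(1 / 2) : ℝ) (1 / 2) ×ˢ Icc (0 : ℝ) 1) →
      ∀ w ∈ Icc (0 : ℝ) 1, IntervalIntegrable (fun u => f (u, w)) volume (-(1 / 2)) (1 / 2) :=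
    fun c w b => ContinuousOn.intervalIntegrable_of_Icc hab
      (c.comp (by fun_prop) fun u a => ⟨a, b⟩)
  have lin : ∀ (L : ℂ →L[ℝ] ℂ) (a b : ℝ), L (a + I * b) = L 1 * a + L I * b := fun L a b => by
    have : (a : ℂ) + I * b = a • (1 : ℂ) + b • I := by simp [mul_comm]
    rw [this, map_add, map_smul, map_smul]
    simp [mul_comm]
  have eP : ∀ u ∈ Icc (-(1 / 2) : ℝ) (1 / 2), ∫ w in (0 : ℝ)..1, Pw u w =
      h (u + I * T) - h (u + I * sa u) * (1 + I * s' u) := fun u a => by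
    rw [integral_eq_sub_of_hasDerivAt (f := fun w : ℝ => h (Z u w) * (1 + I * s' u * (1 - w)))
      (fun w b => ?_) (sl1 cP u a)]
    · simp [hZ]
    rw [uIcc_of_le zero_le_one] at b
    have d1 : HasDerivAt (Z u) ((0 : ℝ) + I * (T - sa u : ℝ)) w := by
      simpa [hZ] using ((((hasDerivAt_id w).mul_const (T - sa u)).const_add (sa u)).ofReal_comp.const_mul
        I).const_add (u : ℂ)
    have d2 := (hd _ (zp u w a b)).comp_hasDerivAt w d1
    have d3 := (((hasDerivAt_id w).ofReal_comp.const_sub 1).const_mul (I * s' u)).const_add 1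
    refine (d2.mul d3).congr_deriv ?_
    rw [lin]
    simp [hP]
  have eQ : ∀ w ∈ Icc (0 : ℝ) 1, ∫ u in (-(1 / 2) : ℝ)..(1 / 2), Qu u w = 0 := fun w b => by
    rw [integral_eq_sub_of_hasDerivAt (f := fun u : ℝ => h (Z u w) * (I * (T - sa u : ℝ)))
      (fun u a => ?_) (sl2 cQ w b)]
    · have : Z (1 / 2) w = Z (-(1 / 2)) w + 1 := by
        simp only [hZ, sa_neg]
        push_cast
        ring
      rw [this, (hp _ (zp _ _ ⟨le_rfl, hab⟩ b)).1, sa_neg, sub_self]
    rw [uIcc_of_le hab] at a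
    have d0 := der_sa (abs_le.2 a)
    have d1 : HasDerivAt (fun u => Z u w) ((1 : ℝ) + I * (-u / sa u * (1 - w) : ℝ)) u := by
      refine ((hasDerivAt_id u).ofReal_comp.add
        ((d0.add ((d0.const_sub T).const_mul w)).ofReal_comp.const_mul I)).congr_deriv ?_
      push_cast
      ring
    have d2 := (hd _ (zp u w a b)).comp_hasDerivAt u d1
    refine (d2.mul ((d0.const_sub T).ofReal_comp.const_mul I)).congr_deriv ?_
    rw [lin]
    simp [hQ, hs]
  have ii : ∀ {f : ℝ × ℝ → ℂ}, ContinuousOn f (Icc (-(1 / 2) : ℝ) (1 / 2) ×ˢ Icc (0 : ℝ) 1) →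
      IntervalIntegrable (fun u => ∫ w in (0 : ℝ)..1, f (u, w)) volume (-(1 / 2)) (1 / 2) := fun c => by
    simp only [integral_of_le zero_le_one, ← integral_Icc_eq_integral_Ioc]
    rw [intervalIntegrable_iff_integrableOn_Icc_of_le hab]
    refine Integrable.integral_prod_left (ν := volume.restrict (Icc 0 1)) ?_
    rw [Measure.prod_restrict]
    exact c.integrableOn_compact (isCompact_Icc.prod isCompact_Icc)
  have cH : ContinuousOn (fun u : ℝ => h (u + I * sa u) * (1 + I * s' u)) (Icc (-(1 / 2)) (1 / 2)) := by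
    have := (c1.mul (continuousOn_const (c := (1 : ℂ)).add (continuousOn_const (c := I).mul c3))).comp
      (f := fun u : ℝ => (u, (0 : ℝ))) (s := Icc (-(1 / 2)) (1 / 2)) (by fun_prop)
      fun u a => ⟨a, le_rfl, zero_le_one⟩
    simpa [Function.comp_def, hZ] using this
  have cT : ContinuousOn (fun u : ℝ => h (u + I * T)) (Icc (-(1 / 2)) (1 / 2)) :=
    hc.continuousOn.comp (by fun_prop) fun u _ => by simp; linarith
  have odd : ∫ u in (-(1 / 2) : ℝ)..(1 / 2), h (u + I * sa u) * (1 + I * s' u) = 0 := by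
    have e := integral_comp_neg (a := (-(1 / 2) : ℝ)) (b := 1 / 2)
      fun u : ℝ => h (u + I * sa u) * (1 + I * s' u)
    rw [neg_neg, integral_congr (g := fun u : ℝ => -(h (u + I * sa u) * (1 + I * s' u)))
      fun u a => ?_, intervalIntegral.integral_neg] at e
    · linear_combination (-1 / 2 : ℂ) * e
    rw [uIcc_of_le hab] at a
    have p := sa_pos (abs_le.2 a)
    have q : (sa u : ℂ) ^ 2 = 1 - u ^ 2 := by exact_mod_cast sa_sq (abs_le.2 a)
    have p' : (sa u : ℂ) ≠ 0 := by exact_mod_cast p.ne'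
    have t : 0 < ((u : ℂ) + I * sa u).im := by simpa using p
    have n : (u : ℂ) + I * sa u ≠ 0 := fun e => by simp [e] at t
    have r : ((-u : ℝ) : ℂ) + I * sa u = -1 / (u + I * sa u) := by
      rw [eq_div_iff n]
      push_cast
      linear_combination (sa u : ℂ) ^ 2 * I_sq - q
    simp only [sa_neg, r, (hp _ t).2, hs]
    push_cast
    field_simp
    linear_combination h (u + I * sa u) * ((u * I - sa u) * q +
      ((sa u : ℂ) ^ 3 + 2 * sa u * u ^ 2 + I * u * sa u ^ 2) * I_sq)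
  rw [int_FT hT ((cl.mono fun τ k => k.1.2.2).integrableOn_compact (compact_FT T)),
    integral_congr (g := fun u => (∫ w in (0 : ℝ)..1, Pw u w) - ∫ w in (0 : ℝ)..1, Qu u w)
      fun u a => ?_, intervalIntegral.integral_sub (ii cP) (ii cQ), swap hab zero_le_one cQ,
    integral_congr (g := fun _ => 0) (f := fun w => ∫ u in (-(1 / 2) : ℝ)..(1 / 2), Qu u w)
      fun w b => eQ w (uIcc_of_le (zero_le_one' ℝ) ▸ b),
    integral_congr (f := fun u => ∫ w in (0 : ℝ)..1, Pw u w) fun u a => eP u (uIcc_of_le hab ▸ a),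
    intervalIntegral.integral_sub (cT.intervalIntegrable_of_Icc hab) (cH.intervalIntegrable_of_Icc hab), odd]
  · simp
  rw [uIcc_of_le hab] at a
  have e := smul_integral_comp_mul_add (a := 0) (b := 1) (fun v : ℝ => Lo h (u + I * v)) (T - sa u) (sa u)
  simp only [mul_zero, zero_add, mul_one, sub_add_cancel] at e
  simp only
  rw [← e, ← intervalIntegral.integral_sub (sl1 cP u a) (sl1 cQ u a), ← intervalIntegral.integral_smul]
  refine integral_congr fun w _ => ?_
  have : (u : ℂ) + I * ((T - sa u) * w + sa u : ℝ) = Z u w := by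
    simp only [hZ]
    push_cast
    ring
  simp only [this, hP, hQ, Lo, real_smul]
  ring

end Vale.Agent.P004Z
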